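import Vale.Agent.P011N.Cl.Defs2
import Vale.Agent.P011.Arith.SUnit

/-!
Weak approximation at the real places.
-/

namespace Vale.Agent.P011N.Cl.RM

open Vale.Agent.P011.Arith (Pl plAbv approx)

theorem approx_real {k : Type} [Field k] [NumberField k] (α ε : (k →+* ℝ) → ℝ)
    (hε : ∀ φ, 0 < ε φ) : ∃ x : k, ∀ φ : k →+* ℝ, |φ x - α φ| < ε φ := by
  choose c hc using fun φ : k →+* ℝ => exists_rat_near (α φ) (half_pos (hε φ))
  obtain ⟨x, hx⟩ := approx (Set.range Sum.inr : Set (Pl k)) (Set.finite_range _)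
    (Sum.elim (fun _ => 0) fun φ => (c φ : k)) (Sum.elim (fun _ => 1) fun φ => ε φ / 2) (by
      rintro (v | φ)
      · exact one_pos
      · exact half_pos (hε φ))
  refine ⟨x, fun φ => ?_⟩
  have h1 : |φ (x - (c φ : k))| < ε φ / 2 := hx (.inr φ) ⟨φ, rfl⟩
  rw [map_sub, map_ratCast] at h1
  have h2 := abs_sub_le (φ x) (c φ) (α φ)
  have h3 := hc φ
  rw [abs_sub_comm] at h3
  linarith

theorem wa : WAStmt := by
  intro F _ _ Γ d n _ hneg S hS hinj U hU
  let k := IntermediateField.fixedField Γ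
  have hk : ∀ x : k, Fx Γ (x : F) := fun x => fx_iff.mpr x.2
  have key : ∀ φ : k →+* ℝ, ∃ (α β : Fin n → ℝ) (ε : ℝ), 0 < ε ∧ ∀ w ∈ S,
      (∀ x : k, w x = φ x) → ∀ x y : Fin n → ℝ, (∀ i, |x i - α i| < ε ∧ |y i - β i| < ε) →
      (fun i => (x i : ℂ) + y i * w d) ∈ U w := by
    intro φ
    by_cases h : ∃ w ∈ S, ∀ x : k, w x = φ x
    swap
    · exact ⟨0, 0, 1, one_pos, fun w hw h1 => absurd ⟨w, hw, h1⟩ h⟩
    obtain ⟨w, hw, h1⟩ := h
    obtain ⟨h2, z, hz⟩ := hU w hw
    have h3 : (w d).im ≠ 0 := by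
      intro h3
      have h4 := hneg w (hS w hw)
      rw [map_pow, sq, Complex.mul_re, h3] at h4
      nlinarith [mul_self_nonneg (w d).re]
    let g : (Fin n → ℝ) × (Fin n → ℝ) → Fin n → ℂ := fun p i => (p.1 i : ℂ) + p.2 i * w d
    have hg : Continuous g := by fun_prop
    obtain ⟨ε, h4, h5⟩ := Metric.isOpen_iff.mp (h2.preimage hg)
      (fun i => (z i).re - (z i).im / (w d).im * (w d).re, fun i => (z i).im / (w d).im) (by
        rw [Set.mem_preimage]
        convert hz using 1
        funext i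
        apply Complex.ext
        · simp only [g, Complex.add_re, Complex.ofReal_re, Complex.re_ofReal_mul]
          ring
        · simp only [g, Complex.add_im, Complex.ofReal_im, Complex.im_ofReal_mul]
          field_simp
          ring)
    refine ⟨fun i => (z i).re - (z i).im / (w d).im * (w d).re, fun i => (z i).im / (w d).im, ε,
      h4, fun w' hw' h6 x y h7 => ?_⟩
    obtain rfl : w = w' := hinj w hw w' hw' fun x hx =>
      (h1 ⟨x, fx_iff.mp hx⟩).trans (h6 ⟨x, fx_iff.mp hx⟩).symm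
    refine h5 (a := (x, y)) ?_
    rw [Metric.mem_ball, Prod.dist_eq, max_lt_iff, dist_pi_lt_iff h4, dist_pi_lt_iff h4]
    exact ⟨fun i => (h7 i).1, fun i => (h7 i).2⟩
  choose α β ε hε h using key
  choose x hx using fun i => approx_real (fun φ => α φ i) ε hε
  choose y hy using fun i => approx_real (fun φ => β φ i) ε hε
  refine ⟨fun i => x i + y i * d, fun i γ hγ h1 => ?_, fun w hw => ?_⟩
  · rw [map_add, map_mul, hk _ γ hγ, hk _ γ hγ, h1]
  · have h1 : NumberField.ComplexEmbedding.IsReal (w.comp (algebraMap k F)) :=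
      NumberField.ComplexEmbedding.isReal_iff.mpr (RingHom.ext fun c =>
        Complex.conj_eq_iff_im.mpr (hS w hw _ (hk c)))
    have h2 : ∀ c : k, w c = h1.embedding c := fun c => (h1.coe_embedding_apply c).symm
    have h3 := h h1.embedding w hw h2 _ _ fun i => ⟨hx i h1.embedding, hy i h1.embedding⟩
    simpa only [map_add, map_mul, h2] using h3

end Vale.Agent.P011N.Cl.RM
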