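import Vale.Agent.P011N.Cl.Defs2

/-!
Signs of ternary hermitian forms over the complex numbers.
-/

namespace Vale.Agent.P011N.Cl.RM

open Matrix
open scoped ComplexOrder

/-- The complex matrices of degree three. -/
abbrev MC : Type := Matrix (Fin 3) (Fin 3) ℂ

variable {G : MC}

/-- The value of a hermitian form. -/
def val (G : MC) (x : Fin 3 → ℂ) : ℝ := (star x ⬝ᵥ G *ᵥ x).re

theorem val_eq (hG : G.IsHermitian) (x : Fin 3 → ℂ) : star x ⬝ᵥ G *ᵥ x = (val G x : ℂ) :=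
  Complex.ext rfl (hG.im_star_dotProduct_mulVec_self x)

theorem val_neg (x : Fin 3 → ℂ) : val (-G) x = -val G x := by
  rw [val, neg_mulVec, dotProduct_neg, Complex.neg_re, val]

theorem val_smul (t : ℝ) (x : Fin 3 → ℂ) : val G ((t : ℂ) • x) = t ^ 2 * val G x := by
  rw [val, star_smul, mulVec_smul, smul_dotProduct, dotProduct_smul, smul_smul, smul_eq_mul,
    Complex.star_def, Complex.conj_ofReal, ← Complex.ofReal_mul, Complex.re_ofReal_mul, val, sq]

theorem posDef_iff (hG : G.IsHermitian) : G.PosDef ↔ ∀ x, x ≠ 0 → 0 < val G x := by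
  rw [posDef_iff_dotProduct_mulVec]
  simp only [hG, true_and, val_eq hG, Complex.zero_lt_real]

theorem det_real (hG : G.IsHermitian) : G.det = (G.det.re : ℂ) := by
  have h1 : star G.det = G.det := by rw [← det_conjTranspose, hG.eq]
  exact (Complex.conj_eq_iff_re.mp h1).symm

theorem det_re_pos (h : G.PosDef) : 0 < G.det.re := (Complex.pos_iff.mp h.det_pos).1

theorem det_re_neg (h : (-G).PosDef) : G.det.re < 0 := by
  have h1 := det_re_pos h
  rw [det_neg, Fintype.card_fin] at h1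
  norm_num at h1
  exact h1

theorem exists_neg (hG : G.IsHermitian) (h0 : G.det ≠ 0) (h : ¬ G.PosDef) : ∃ x, val G x < 0 := by
  by_contra hcon
  push Not at hcon
  refine h ((PosSemidef.of_dotProduct_mulVec_nonneg hG fun x => ?_).posDef_iff_det_ne_zero.mpr h0)
  rw [val_eq hG, Complex.zero_le_real]
  exact hcon x

theorem exists_pos (hG : G.IsHermitian) (h : 0 < G.det.re) : ∃ x, 0 < val G x := by
  obtain ⟨x, hx⟩ := exists_neg hG.neg (by
    rw [det_neg]
    refine mul_ne_zero (pow_ne_zero _ (by norm_num)) fun h1 => ?_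
    rw [h1] at h
    exact lt_irrefl _ h) fun h1 => lt_asymm h (det_re_neg h1)
  exact ⟨x, by rwa [val_neg, neg_lt_zero] at hx⟩

theorem def_iff (hG : G.IsHermitian) : Def id G ↔ G.PosDef ∨ (-G).PosDef := by
  have h1 : Def id G ↔ ∀ x, x ≠ 0 → val G x ≠ 0 := by
    refine ⟨fun h x hx h2 => h (star x) (star_ne_zero.mpr hx) ?_, fun h x hx h2 =>
      h (star x) (star_ne_zero.mpr hx) ?_⟩
    · rw [map_id, star_star, val_eq hG, h2, Complex.ofReal_zero]
    · rw [map_id] at h2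
      rw [val, star_star, h2, Complex.zero_re]
  rw [h1, posDef_iff hG, posDef_iff hG.neg]
  refine ⟨fun h => ?_, fun h x hx => ?_⟩
  · by_contra hcon
    push Not at hcon
    obtain ⟨⟨x, hx, h2⟩, y, hy, h3⟩ := hcon
    rw [val_neg, neg_nonpos] at h3
    have h4 := lt_of_le_of_ne h2 (h x hx)
    have h5 := lt_of_le_of_ne h3 (h y hy).symm
    let f : ℝ → ℝ := fun t => val G (((1 - t : ℝ) : ℂ) • x + (t : ℂ) • y)
    have hf : Continuous f := by
      unfold f val
      fun_prop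
    obtain ⟨t, -, ht⟩ := intermediate_value_Icc (zero_le_one' ℝ) hf.continuousOn
      (show (0 : ℝ) ∈ Set.Icc (f 0) (f 1) from ⟨by simpa [f] using h2, by simpa [f] using h3⟩)
    refine h _ (fun h6 => ?_) ht
    have h7 : ((1 - t : ℝ) : ℂ) • x = ((-t : ℝ) : ℂ) • y := by
      rw [Complex.ofReal_neg, neg_smul]
      exact eq_neg_of_add_eq_zero_left h6
    have h8 := congrArg (val G) h7
    rw [val_smul, val_smul] at h8
    have h9 := mul_nonpos_of_nonneg_of_nonpos (sq_nonneg (1 - t)) h2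
    have h10 := mul_nonneg (sq_nonneg (-t)) h3
    have h11 := (mul_eq_zero.mp (le_antisymm h9 (h8 ▸ h10))).resolve_right h4.ne
    have h12 := (mul_eq_zero.mp (le_antisymm (h8 ▸ h9) h10)).resolve_right h5.ne'
    have h13 := pow_eq_zero_iff (two_ne_zero) |>.mp h11
    have h14 := pow_eq_zero_iff (two_ne_zero) |>.mp h12
    linarith
  · rcases h with h | h
    · exact (h x hx).ne'
    · have h2 := h x hx
      rw [val_neg] at h2
      linarith

theorem tr_eq (M : MC) : Mᵀ = (M.map star)ᴴ := by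
  ext i j
  simp

theorem herm_cong (hG : G.IsHermitian) (M : MC) : (Mᵀ * G * M.map star).IsHermitian := by
  rw [tr_eq]
  exact isHermitian_conjTranspose_mul_mul _ hG

theorem det_rank_one (h0 : G.det ≠ 0) (s : ℂ) (b c : Fin 3 → ℂ) :
    (G + s • vecMulVec b c).det = G.det * (1 + s * (c ⬝ᵥ G⁻¹ *ᵥ b)) := by
  rw [inv_def, Ring.inverse_eq_inv', smul_mulVec, dotProduct_smul, smul_eq_mul, mul_add, mul_one,
    mul_left_comm, mul_inv_cancel_left₀ h0]
  simp [det_fin_three, adjugate_fin_three, dotProduct, mulVec, Fin.sum_univ_three, vecMulVec_apply]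
  ring

theorem exists_det_neg {G₁ G₂ : MC} (h1 : G₁.IsHermitian) (h2 : G₂.IsHermitian)
    (h : 0 < (G₁.det * G₂.det).re) (hn : ¬ (G₁.PosDef ∧ G₂.PosDef)) :
    ∃ M : MC, (G₁ + Mᵀ * G₂ * M.map star).det.re < 0 := by
  have h3 : 0 < G₁.det.re * G₂.det.re := by
    rwa [det_real h1, det_real h2, ← Complex.ofReal_mul, Complex.ofReal_re] at h
  rcases mul_pos_iff.mp h3 with ⟨h4, h5⟩ | ⟨h4, -⟩
  swap
  · exact ⟨0, by simpa using h4⟩
  have h6 : G₁.det ≠ 0 := fun h7 => by rw [h7] at h4; exact lt_irrefl _ h4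
  have h7 : G₂.det ≠ 0 := fun h7 => by rw [h7] at h5; exact lt_irrefl _ h5
  have h8 : 0 < G₁⁻¹.det.re := by
    rw [det_nonsing_inv, Ring.inverse_eq_inv', det_real h1, ← Complex.ofReal_inv,
      Complex.ofReal_re]
    exact inv_pos.mpr h4
  obtain ⟨z, b, hzb⟩ : ∃ z b, val G₂ z * val G₁⁻¹ b < 0 := by
    by_cases h9 : G₂.PosDef
    · obtain ⟨z, hz⟩ := exists_pos h2 h5
      obtain ⟨b, hb⟩ := exists_neg h1.inv (fun h10 => by rw [h10] at h8; exact lt_irrefl _ h8)
        fun h10 => hn ⟨posDef_inv_iff.mp h10, h9⟩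
      exact ⟨z, b, mul_neg_of_pos_of_neg hz hb⟩
    · obtain ⟨z, hz⟩ := exists_neg h2 h7 h9
      obtain ⟨b, hb⟩ := exists_pos h1.inv h8
      exact ⟨z, b, mul_neg_of_neg_of_pos hz hb⟩
  set c := val G₂ z * val G₁⁻¹ b with hc
  let y : Fin 3 → ℂ := ((Real.sqrt (-2 / c) : ℝ) : ℂ) • z
  have hy : val G₂ y * val G₁⁻¹ b = -2 := by
    rw [val_smul, Real.sq_sqrt (div_nonneg_of_nonpos (by norm_num) hzb.le), mul_assoc, ← hc,
      div_mul_cancel₀ _ hzb.ne]
  refine ⟨vecMulVec (star y) b, ?_⟩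
  have h9 : (vecMulVec (star y) b)ᵀ * G₂ * (vecMulVec (star y) b).map star =
      (star y ⬝ᵥ G₂ *ᵥ y) • vecMulVec b (star b) := by
    ext i j
    simp [mul_apply, vecMulVec_apply, dotProduct, mulVec, Fin.sum_univ_three]
    ring
  rw [h9, det_rank_one h6, val_eq h2, val_eq h1.inv, ← Complex.ofReal_mul, hy, det_real h1]
  norm_num
  exact h4

theorem ra : RAStmt := by
  intro G₁ G₂ ν h1 h2 hν h
  rw [or_iff_not_imp_left]
  intro hn
  have hs : ∀ {G : MC}, G.IsHermitian → ((ν : ℂ) • G).IsHermitian := fun hG =>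
    hG.smul (Complex.conj_ofReal ν)
  obtain ⟨M, hM⟩ := exists_det_neg (hs h1) (hs h2) (by
    rw [det_smul, det_smul, mul_mul_mul_comm, ← mul_pow, ← Complex.ofReal_mul,
      ← Complex.ofReal_pow, Complex.re_ofReal_mul]
    exact mul_pos (pow_pos (mul_self_pos.mpr hν) _) h) hn
  refine ⟨{M | ν * (G₁ + Mᵀ * G₂ * M.map star).det.re < 0}, isOpen_lt (by fun_prop)
    continuous_const, ⟨M, ?_⟩, fun M hM => hM⟩
  rw [Matrix.mul_smul, Matrix.smul_mul, ← smul_add, det_smul, Fintype.card_fin,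
    ← Complex.ofReal_pow, Complex.re_ofReal_mul] at hM
  have h3 : 0 < ν ^ 2 := by positivity
  rw [Set.mem_ofPred_eq]
  by_contra hcon
  push Not at hcon
  nlinarith [mul_nonneg h3.le hcon]

theorem det_blocks (G₁ G₂ A B C D : MC) :
    (fromBlocks (Aᵀ * G₁ * A.map star + Cᵀ * G₂ * C.map star)
      (Aᵀ * G₁ * B.map star + Cᵀ * G₂ * D.map star)
      (Bᵀ * G₁ * A.map star + Dᵀ * G₂ * C.map star)
      (Bᵀ * G₁ * B.map star + Dᵀ * G₂ * D.map star)).det =
      (Complex.normSq (fromBlocks A B C D).det : ℂ) * (G₁.det * G₂.det) := by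
  have h1 : (fromBlocks A B C D)ᵀ * fromBlocks G₁ 0 0 G₂ * (fromBlocks A B C D).map star =
      fromBlocks (Aᵀ * G₁ * A.map star + Cᵀ * G₂ * C.map star)
      (Aᵀ * G₁ * B.map star + Cᵀ * G₂ * D.map star)
      (Bᵀ * G₁ * A.map star + Dᵀ * G₂ * C.map star)
      (Bᵀ * G₁ * B.map star + Dᵀ * G₂ * D.map star) := by
    rw [fromBlocks_transpose, fromBlocks_map, fromBlocks_multiply, fromBlocks_multiply]
    simp
  have h2 : ((fromBlocks A B C D).map star).det = star (fromBlocks A B C D).det :=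
    ((starRingEnd ℂ).map_det _).symm
  rw [← h1, det_mul, det_mul, det_transpose, det_fromBlocks_zero₂₁, h2, ← Complex.mul_conj]
  simp only [Complex.star_def]
  ring

theorem not_both {G₁ G₂ : MC} (h1 : G₁.IsHermitian) (h2 : G₂.IsHermitian)
    (h : 0 < (G₁.det * G₂.det).re) {A B C D : MC}
    (hp : (Aᵀ * G₁ * A.map star + Cᵀ * G₂ * C.map star).PosDef)
    (hn : (-(Bᵀ * G₁ * B.map star + Dᵀ * G₂ * D.map star)).PosDef) : False := by
  have h3 := det_blocks G₁ G₂ A B C D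
  have h4 : Bᵀ * G₁ * A.map star + Dᵀ * G₂ * C.map star =
      (Aᵀ * G₁ * B.map star + Cᵀ * G₂ * D.map star)ᴴ := by
    rw [conjTranspose_add, conjTranspose_mul, conjTranspose_mul, conjTranspose_mul,
      conjTranspose_mul, h1.eq, h2.eq, ← tr_eq, ← tr_eq, tr_eq A, tr_eq C,
      conjTranspose_conjTranspose, conjTranspose_conjTranspose, mul_assoc, mul_assoc]
  rw [h4] at h3
  generalize Aᵀ * G₁ * A.map star + Cᵀ * G₂ * C.map star = H₁ at hp h3
  generalize Bᵀ * G₁ * B.map star + Dᵀ * G₂ * D.map star = H₂ at hn h3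
  generalize Aᵀ * G₁ * B.map star + Cᵀ * G₂ * D.map star = E at h3
  let _ := hp.isUnit.invertible
  rw [det_fromBlocks₁₁, invOf_eq_nonsing_inv] at h3
  have h5 : (-(H₂ - Eᴴ * H₁⁻¹ * E)).PosDef := by
    rw [neg_sub, sub_eq_add_neg]
    exact PosDef.posSemidef_add (hp.inv.posSemidef.conjTranspose_mul_mul_same E) hn
  have h6 := congrArg Complex.re h3
  rw [det_real hp.1, Complex.re_ofReal_mul, Complex.re_ofReal_mul] at h6
  have h7 := mul_neg_of_pos_of_neg (det_re_pos hp) (det_re_neg h5)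
  rw [h6] at h7
  exact absurd h7 (not_lt.mpr (mul_nonneg (Complex.normSq_nonneg _) h.le))

theorem rm_aux {G₁ G₂ : MC} (h1 : G₁.IsHermitian) (h2 : G₂.IsHermitian)
    (h : 0 < (G₁.det * G₂.det).re)
    (hn : ∀ B D : MC, ¬ (-(Bᵀ * G₁ * B.map star + Dᵀ * G₂ * D.map star)).PosDef) :
    ∃ O : Set MC, IsOpen O ∧ O.Nonempty ∧ ∀ M ∈ O, (G₁ + Mᵀ * G₂ * M.map star).det ≠ 0 ∧
      ∀ P Q : MC, G₁ * P.map star + Mᵀ * G₂ * Q.map star = 0 → Q.det ≠ 0 →
        (Def id (G₁ + Mᵀ * G₂ * M.map star) ↔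
          Def id (Pᵀ * G₁ * P.map star + Qᵀ * G₂ * Q.map star)) := by
  have hH : ∀ M : MC, (G₁ + Mᵀ * G₂ * M.map star).IsHermitian := fun M => h1.add (herm_cong h2 M)
  have hH' : ∀ P Q : MC, (Pᵀ * G₁ * P.map star + Qᵀ * G₂ * Q.map star).IsHermitian := fun P Q =>
    (herm_cong h1 P).add (herm_cong h2 Q)
  rcases ra G₁ G₂ 1 h1 h2 one_ne_zero h with ⟨h3, h4⟩ | ⟨O, h3, h4, h5⟩
  · rw [Complex.ofReal_one, one_smul] at h3 h4
    have h5 : ∀ M : MC, (G₁ + Mᵀ * G₂ * M.map star).PosDef := fun M => by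
      rw [tr_eq]
      exact h3.add_posSemidef (h4.posSemidef.conjTranspose_mul_mul_same _)
    refine ⟨Set.univ, isOpen_univ, Set.univ_nonempty, fun M _ => ⟨(h5 M).det_pos.ne',
      fun P Q _ hQ => iff_of_true ((def_iff (hH M)).mpr (Or.inl (h5 M)))
        ((def_iff (hH' P Q)).mpr (Or.inl ?_))⟩⟩
    rw [tr_eq P, tr_eq Q]
    refine PosDef.posSemidef_add (h3.posSemidef.conjTranspose_mul_mul_same _)
      (h4.conjTranspose_mul_mul_same (mulVec_injective_iff_isUnit.mpr ?_))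
    have h6 : (Q.map star).det = star Q.det := ((starRingEnd ℂ).map_det _).symm
    rw [isUnit_iff_isUnit_det, h6, isUnit_iff_ne_zero]
    exact star_ne_zero.mpr hQ
  refine ⟨O, h3, h4, fun M hM => ?_⟩
  have h6 := h5 M hM
  rw [one_mul] at h6
  refine ⟨fun h7 => by rw [h7] at h6; exact lt_irrefl _ h6, fun P Q hPQ _ => iff_of_false
    (fun h7 => ?_) fun h7 => ?_⟩
  · rcases (def_iff (hH M)).mp h7 with h8 | h8
    · exact lt_asymm h6 (det_re_pos h8)
    · exact hn 1 M (by simpa using h8)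
  · rcases (def_iff (hH' P Q)).mp h7 with h8 | h8
    · have h9 := det_blocks G₁ G₂ 1 P M Q
      rw [transpose_one, Matrix.one_mul, hPQ, det_fromBlocks_zero₁₂, Matrix.map_one _ (by simp)
        (by simp), Matrix.mul_one] at h9
      have h10 := congrArg Complex.re h9
      rw [det_real h8.1, mul_comm, Complex.re_ofReal_mul, Complex.re_ofReal_mul] at h10
      have h11 := mul_neg_of_pos_of_neg (det_re_pos h8) h6
      rw [h10] at h11
      exact absurd h11 (not_lt.mpr (mul_nonneg (Complex.normSq_nonneg _) h.le))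
    · exact hn P Q h8

theorem def_neg {F : Type} [Field F] {w : F → ℂ} (hw : ∀ x, w (-x) = -w x)
    {G : Matrix (Fin 3) (Fin 3) F} : Def w (-G) ↔ Def w G := by
  have h1 : (-G).map w = -G.map w := by
    ext i j
    exact hw _
  simp only [Def, h1, neg_mulVec, dotProduct_neg, neg_ne_zero]

theorem rm : RMStmt := by
  intro G₁ G₂ h1 h2 h
  by_cases hn : ∀ B D : MC, ¬ (-(Bᵀ * G₁ * B.map star + Dᵀ * G₂ * D.map star)).PosDef
  · exact rm_aux h1 h2 h hn
  push Not at hn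
  obtain ⟨B, D, hn⟩ := hn
  have e : ∀ P Q : MC, Pᵀ * -G₁ * P.map star + Qᵀ * -G₂ * Q.map star =
      -(Pᵀ * G₁ * P.map star + Qᵀ * G₂ * Q.map star) := fun P Q => by
    simp only [Matrix.mul_neg, Matrix.neg_mul, neg_add]
  have e' : ∀ M : MC, -G₁ + Mᵀ * -G₂ * M.map star = -(G₁ + Mᵀ * G₂ * M.map star) := fun M => by
    simp only [Matrix.mul_neg, Matrix.neg_mul, neg_add]
  obtain ⟨O, h3, h4, h5⟩ := rm_aux h1.neg h2.neg (by
    rw [det_neg, det_neg, Fintype.card_fin]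
    convert h using 2
    ring) fun A C hp => not_both h1 h2 h (by rwa [e, neg_neg] at hp) hn
  refine ⟨O, h3, h4, fun M hM => ⟨fun h6 => (h5 M hM).1 (by rw [e', det_neg, h6, mul_zero]),
    fun P Q hPQ hQ => ?_⟩⟩
  have h6 := (h5 M hM).2 P Q (by
    simp only [Matrix.mul_neg, Matrix.neg_mul, ← neg_add, hPQ, neg_zero]) hQ
  rwa [e, e', def_neg (w := id) fun _ => rfl, def_neg (w := id) fun _ => rfl] at h6

end Vale.Agent.P011N.Cl.RM
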